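import Vale.Agent.P323.N.Fin

open Vale.Agent.P323

universe u

/-- Further classes of permutation models of ZFA which cannot separate the partition principle
from the axiom of choice. -/
theorem Vale.Agent.Results.P323.PermModelsC.result :
    (∀ (A : Type u) [Countable A] (Γ : Subgroup (Equiv.Perm A)),
      (∀ f : Equiv.Perm A, (∀ s : Finset A, ∃ g ∈ Γ, ∀ a ∈ s, g a = f a) → f ∈ Γ) →
      ∀ I : SuppIdeal Γ A, (PP (suppFilter I) ↔ AC (suppFilter I))) ∧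
    (∀ (G : Type u) [Group G] [TopologicalSpace G] [IsTopologicalGroup G] [PolishSpace G]
      (F : NormalFilter G),
      (∀ K : Subgroup G, F.mem K → ∃ D : Subgroup G, F.mem D ∧ D ≤ K ∧ IsClosed (D : Set G)) →
      (PP F ↔ AC F)) ∧
    (∀ (G : Type u) [Group G] (F : NormalFilter G),
      ((∃ K : Subgroup G, F.mem K ∧ ∃ w : FreeGroup ℕ, w ≠ 1 ∧
          ∀ φ : ℕ → G, (∀ i, φ i ∈ K) → FreeGroup.lift φ w = 1) ∨
        (∃ K : Subgroup G, F.mem K ∧ ∀ D : Subgroup G, F.mem D →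
          ∃ D' : Subgroup G, F.mem D' ∧ D' ≤ D ∧ ∀ g ∈ K,
            (∀ x ∈ D', g * x * g⁻¹ ∈ D') → ∀ x ∈ D', g⁻¹ * x * g ∈ D')) →
      (WOChoice F ↔ AC F) ∧ (PP F ↔ AC F)) ∧
    (∀ (G : Type u) [Group G] (F : NormalFilter G),
      (∃ K : Subgroup G, F.mem K ∧ ∃ n : ℕ, 2 ≤ n ∧ ∀ D : Subgroup G, F.mem D →
        ∃ D' : Subgroup G, F.mem D' ∧ D' ≤ D ∧ ∀ g ∈ K, g ^ n ∈ D' → g ∈ D') →
      (PP F ↔ AC F)) ∧
    (∀ (G A : Type u) [Group G] [MulAction G A] (I : SuppIdeal G A),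
      (∃ e₀ : Set A, I.mem e₀ ∧ ∃ n : ℕ, 2 ≤ n ∧ ∀ g : G, (∀ a ∈ e₀, g • a = a) →
        ∀ e, I.mem e → ∀ a ∈ e, g ^ n • a = a → g • a = a) →
      (PP (suppFilter I) ↔ AC (suppFilter I))) := by
  refine ⟨?_, ?_, ?_, fun G _ F h => fin_root h, fun G A _ _ I h => fin_cycle h⟩
  · intro A _ Γ hΓ I
    exact fin_small fun hPP hU => smallIndex_of_closed_perm Γ hΓ I hPP hU
  · intro G _ _ _ _ F hb
    exact fin_small fun hPP hU => smallIndex_of_polish hPP hU hb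
  · rintro G _ F (h | h)
    · exact fin_least fun hU => least_of_law hU h
    · exact fin_least fun hU => least_of_noSelfConj hU h
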