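import Vale.Agent.P323.Final
import Vale.Agent.P323.N.Fin

open Vale.Agent.P323

universe u

/-- The partition principle and the axiom of choice in permutation models of ZFA: all classes
of models treated so far which cannot separate the two principles. -/
theorem Vale.Agent.Results.P323.PermModelsD.result :
    (∀ (A : Type u) [Countable A] (Γ : Subgroup (Equiv.Perm A)),
      (∀ f : Equiv.Perm A, (∀ s : Finset A, ∃ g ∈ Γ, ∀ a ∈ s, g a = f a) → f ∈ Γ) →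
      ∀ I : SuppIdeal Γ A, (PP (suppFilter I) ↔ AC (suppFilter I))) ∧
    (∀ (G : Type u) [Group G] [TopologicalSpace G] [IsTopologicalGroup G] [PolishSpace G]
      (F : NormalFilter G),
      (∀ K : Subgroup G, F.mem K → ∃ D : Subgroup G, F.mem D ∧ D ≤ K ∧ IsClosed (D : Set G)) →
      (PP F ↔ AC F)) ∧
    (∀ (G : Type u) [Group G] (F : NormalFilter G),
      ((∃ K : Subgroup G, F.mem K ∧ ∀ g ∈ K, IsOfFinOrder g) ∨
        (∃ K : Subgroup G, F.mem K ∧ ∃ w : FreeGroup ℕ, w ≠ 1 ∧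
          ∀ φ : ℕ → G, (∀ i, φ i ∈ K) → FreeGroup.lift φ w = 1) ∨
        (∃ K : Subgroup G, F.mem K ∧ ∀ D : Subgroup G, F.mem D →
          ∃ D' : Subgroup G, F.mem D' ∧ D' ≤ D ∧ ∀ g ∈ K,
            (∀ x ∈ D', g * x * g⁻¹ ∈ D') → ∀ x ∈ D', g⁻¹ * x * g ∈ D')) →
      (WOChoice F ↔ AC F) ∧ (PP F ↔ AC F)) ∧
    (∀ (G : Type u) [Group G] (F : NormalFilter G),
      (SmallIndex F ∨
        (∃ K : Subgroup G, F.mem K ∧ ∃ n : ℕ, 2 ≤ n ∧ ∀ D : Subgroup G, F.mem D →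
          ∃ D' : Subgroup G, F.mem D' ∧ D' ≤ D ∧ ∀ g ∈ K, g ^ n ∈ D' → g ∈ D')) →
      (PP F ↔ AC F)) ∧
    (∀ (G A : Type u) [Group G] [MulAction G A] (I : SuppIdeal G A),
      (((∀ e, I.mem e → e.Finite) ∧ Cardinal.mk A < Cardinal.continuum.{u}) ∨
        (∃ r : A → A → Prop, IsStrictTotalOrder A r ∧
          ∀ (g : G) (a b : A), r a b → r (g • a) (g • b)) ∨
        (∀ a b : A, ∃ g : G, g • a = b ∧ g • b = a ∧ ∀ c, c ≠ a → c ≠ b → g • c = c) ∨
        (∃ e₀ : Set A, I.mem e₀ ∧ ∃ n : ℕ, 2 ≤ n ∧ ∀ g : G, (∀ a ∈ e₀, g • a = a) →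
          ∀ e, I.mem e → ∀ a ∈ e, g ^ n • a = a → g • a = a)) →
      (PP (suppFilter I) ↔ AC (suppFilter I))) ∧
    (∀ (G : Type u) [Group G] (F : NormalFilter G), (WOChoice F ∨ PP F) →
      (∃ n : ℕ, 2 ≤ n ∧ ChoiceN F n) → AC F) ∧
    (∀ (G : Type u) [Group G] (F : NormalFilter G), PP F →
      ∀ X : MSet F, LinOrderable X → WellOrderable X) ∧
    (∀ (G A : Type u) [Group G] [MulAction G A] (I : SuppIdeal G A), PP (suppFilter I) →
      ∃ C : Set A, I.mem C ∧ ∀ P : Subgroup G, (suppFilter I).mem P →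
        (∀ g ∈ P, ∀ a ∈ C, g • a = a) →
          ∃ e : Set A, I.mem e ∧ ∀ g, g ∈ P ↔ ∀ a ∈ e, g • a = a) := by
  obtain ⟨h1, h2, h3, h4, h5⟩ := final.{u}
  refine ⟨?_, ?_, ?_, ?_, ?_, fun G _ F h hn => h1 G F h (Or.inl hn), h2, h5⟩
  · intro A _ Γ hΓ I
    exact fin_small fun hPP hU => smallIndex_of_closed_perm Γ hΓ I hPP hU
  · intro G _ _ _ _ F hb
    exact fin_small fun hPP hU => smallIndex_of_polish hPP hU hb
  · rintro G _ F (h | h | h)
    · exact ⟨⟨fun hW => h1 G F (Or.inl hW) (Or.inr h), woc_of_ac⟩,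
        ⟨fun hP => h1 G F (Or.inr hP) (Or.inr h), fun hA => pp_of_ac hA⟩⟩
    · exact fin_least fun hU => least_of_law hU h
    · exact fin_least fun hU => least_of_noSelfConj hU h
  · rintro G _ F (h | h)
    · exact h3 G F h
    · exact fin_root h
  · rintro G A _ _ I (h | h | h | h)
    · exact h4 G A I (Or.inl h)
    · exact h4 G A I (Or.inr (Or.inl h))
    · exact h4 G A I (Or.inr (Or.inr h))
    · exact fin_cycle h
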